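import Vale.Agent.N078H.Main
import Vale.Agent.N078.T3G

/-! The growth of the paving number for every inclusion. -/

namespace Vale.Agent.Results.P078.A0Trichotomy

open Vale.Agent.N078H Filter Topology

theorem result {H : Type*} [NormedAddCommGroup H] [InnerProductSpace ℂ H] [CompleteSpace H]
    (M : VonNeumannAlgebra H) (A : StarSubalgebra ℂ (H →L[ℂ] H)) (hA : IsMASA M A) :
    ((∃ N : ℕ, ∀ᶠ ε in 𝓝[>] (0 : ℝ), pavingNumber M A ε = N) ∨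
      (∃ N : ℕ, ∀ ε : ℝ, 0 < ε →
        (⌈1 / ε⌉₊ : ℕ∞) ≤ pavingNumber M A ε ∧ pavingNumber M A ε ≤ (⌈1 / ε⌉₊ + N : ℕ)) ∨
      ∀ ε : ℝ, 0 < ε → (⌈1 / ε ^ 2⌉₊ : ℕ∞) ≤ pavingNumber M A ε) ∧
    (degree M A = ⊤ → ∀ ε : ℝ, 0 < ε → (⌈1 / ε ^ 2⌉₊ : ℕ∞) ≤ pavingNumber M A ε) ∧
    ∀ d : ℕ, degree M A = d → ∀ ε : ℝ, 0 < ε →
      (⌈min (d : ℝ) (1 / ε ^ 2) / 3⌉₊ : ℕ∞) ≤ pavingNumber M A ε ∧
      (ε * (d : ℝ) ^ 4 < 1 → (d : ℕ∞) ≤ pavingNumber M A ε) :=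
  have hQ : QuadAll H := fun hA _ hz hzp _ hE hinf _ h0 =>
    Vale.Agent.N078T.quadratic_sharp hA hz hzp hE hinf h0
  ⟨trichotomy hQ hA, fun hd _ h0 => infinite_degree hQ hA hd h0,
    fun _ hd _ h0 => ⟨(finite_degree hA hd h0).1, (finite_degree hA hd h0).2.1⟩⟩

end Vale.Agent.Results.P078.A0Trichotomy
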